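import Mathlib

/-!
Length bookkeeping for quotients of a local ring by ideals.
-/

namespace Vale.Agent.P202.Fibre

open IsLocalRing

universe u v

/-- The colon ideal `(J : w)`. -/
def col {S : Type u} [CommRing S] (J : Ideal S) (w : S) : Ideal S :=
  Submodule.comap (LinearMap.lsmul S S w) J

lemma mem_col {S : Type u} [CommRing S] {J : Ideal S} {w x : S} :
    x ∈ col J w ↔ w * x ∈ J := Iff.rfl

/-- The length of `S/J`. -/
noncomputable def len {S : Type u} [CommRing S] (J : Ideal S) : ℕ∞ :=
  Module.length S (S ⧸ J)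

/-- The length of `S/J` as a real number. -/
noncomputable def L {S : Type u} [CommRing S] (J : Ideal S) : ℝ :=
  ((len J).toNat : ℝ)

section ring
variable {S : Type u} [CommRing S]

lemma L_nonneg (J : Ideal S) : 0 ≤ L J := Nat.cast_nonneg _

lemma L_le_L {J K : Ideal S} (h : J ≤ K) (hJ : len J ≠ ⊤) : L K ≤ L J := by
  unfold L
  exact_mod_cast ENat.toNat_le_toNat
    (Module.length_le_of_surjective (Submodule.factor h) (Submodule.factor_surjective h)) hJ

lemma len_mono {J K : Ideal S} (h : J ≤ K) : len K ≤ len J :=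
  Module.length_le_of_surjective (Submodule.factor h) (Submodule.factor_surjective h)

lemma len_eq_col_add (J : Ideal S) (w : S) :
    len J = len (col J w) + len (J ⊔ Ideal.span {w}) := by
  let f : (S ⧸ col J w) →ₗ[S] (S ⧸ J) :=
    Submodule.mapQ (col J w) J (LinearMap.lsmul S S w) (le_refl _)
  let g : (S ⧸ J) →ₗ[S] (S ⧸ (J ⊔ Ideal.span {w})) := Submodule.factor le_sup_left
  apply Module.length_eq_add_of_exact f g
  · rw [← LinearMap.ker_eq_bot, Submodule.eq_bot_iff]
    intro x hx
    obtain ⟨x, rfl⟩ := Submodule.Quotient.mk_surjective _ x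
    change (Submodule.Quotient.mk (w * x) : S ⧸ J) = 0 at hx
    rw [Submodule.Quotient.mk_eq_zero] at hx ⊢
    exact mem_col.2 hx
  · exact Submodule.factor_surjective _
  · intro y
    obtain ⟨y, rfl⟩ := Submodule.Quotient.mk_surjective _ y
    constructor
    · intro hy
      change (Submodule.Quotient.mk y : S ⧸ (J ⊔ Ideal.span {w})) = 0 at hy
      rw [Submodule.Quotient.mk_eq_zero] at hy
      obtain ⟨j, hj, t, ht, rfl⟩ := Submodule.mem_sup.1 hy
      obtain ⟨a, rfl⟩ := Ideal.mem_span_singleton'.1 ht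
      refine ⟨Submodule.Quotient.mk a, ?_⟩
      change (Submodule.Quotient.mk (w * a) : S ⧸ J) = Submodule.Quotient.mk (j + a * w)
      rw [Submodule.Quotient.eq]
      simpa [mul_comm w a] using hj
    · rintro ⟨a, ha⟩
      obtain ⟨a, rfl⟩ := Submodule.Quotient.mk_surjective _ a
      rw [← ha]
      change (Submodule.Quotient.mk (w * a) : S ⧸ (J ⊔ Ideal.span {w})) = 0
      rw [Submodule.Quotient.mk_eq_zero]
      exact Ideal.mem_sup_right (Ideal.mem_span_singleton'.2 ⟨a, by simp [mul_comm]⟩)

lemma col_col (J : Ideal S) (a b : S) : col (col J a) b = col J (a * b) := by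
  ext x; simp [mem_col, mul_assoc]

lemma col_one (J : Ideal S) : col J 1 = J := by
  ext x; simp [mem_col]

lemma len_iterate (J : Ideal S) (w : S) (m : ℕ) :
    len J = len (col J (w ^ m)) +
      ∑ s ∈ Finset.range m, len (col J (w ^ s) ⊔ Ideal.span {w}) := by
  induction m with
  | zero => simp [col_one]
  | succ m ih =>
    rw [Finset.sum_range_succ, ih, len_eq_col_add (col J (w ^ m)) w, col_col, ← pow_succ]
    abel

lemma len_top : len (⊤ : Ideal S) = 0 := by
  rw [len, Module.length_eq_zero_iff]
  exact Submodule.Quotient.subsingleton_iff.2 rfl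

lemma L_top : L (⊤ : Ideal S) = 0 := by simp [L, len_top]

lemma len_le_sum (J : Ideal S) (w : S) (m : ℕ) (hm : w ^ m ∈ J) :
    len J = ∑ s ∈ Finset.range m, len (col J (w ^ s) ⊔ Ideal.span {w}) := by
  have h : col J (w ^ m) = ⊤ := by
    rw [eq_top_iff]
    intro x _
    exact mem_col.2 (J.mul_mem_right x hm)
  conv_lhs => rw [len_iterate J w m, h, len_top, zero_add]

lemma len_inf_le (A B : Ideal S) : len (A ⊓ B) ≤ len A + len B := by
  rw [len, len, len, ← Module.length_prod]
  refine Module.length_le_of_injective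
    ((Submodule.factor (inf_le_left : A ⊓ B ≤ A)).prod
      (Submodule.factor (inf_le_right : A ⊓ B ≤ B))) ?_
  rw [← LinearMap.ker_eq_bot, Submodule.eq_bot_iff]
  intro x hx
  obtain ⟨x, rfl⟩ := Submodule.Quotient.mk_surjective _ x
  change ((Submodule.Quotient.mk x : S ⧸ A), (Submodule.Quotient.mk x : S ⧸ B)) = 0 at hx
  simp only [Prod.mk_eq_zero, Submodule.Quotient.mk_eq_zero] at hx
  exact (Submodule.Quotient.mk_eq_zero _).2 ⟨hx.1, hx.2⟩

end ring

section local_ring
variable {S : Type u} [CommRing S] [IsNoetherianRing S] [IsLocalRing S]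

lemma len_ne_top {J : Ideal S} (K : ℕ) (h : maximalIdeal S ^ K ≤ J) : len J ≠ ⊤ := by
  by_cases hJ : J = ⊤
  · simp [hJ, len_top]
  have : Nontrivial (S ⧸ J) := Ideal.Quotient.nontrivial_iff.mpr hJ
  have := IsLocalRing.of_surjective' (Ideal.Quotient.mk J) Ideal.Quotient.mk_surjective
  have := IsLocalHom.of_surjective (Ideal.Quotient.mk J) Ideal.Quotient.mk_surjective
  have : IsArtinianRing (S ⧸ J) := by
    rw [isArtinianRing_iff_isNilpotent_maximalIdeal]
    refine ⟨K, ?_⟩
    have hmax : maximalIdeal (S ⧸ J) = (maximalIdeal S).map (Ideal.Quotient.mk J) := by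
      ext x
      obtain ⟨x, rfl⟩ := Ideal.Quotient.mk_surjective x
      simp [sup_eq_left.mpr (le_maximalIdeal hJ)]
    rw [hmax, ← Ideal.map_pow, Ideal.zero_eq_bot, Ideal.map_eq_bot_iff_le_ker, Ideal.mk_ker]
    exact h
  rw [len, Module.length_eq_of_surjective (R := S ⧸ J) (M := S ⧸ J) Ideal.Quotient.mk_surjective]
  exact Module.length_ne_top

lemma exists_pow_le_of_len_ne_top {J : Ideal S} (h : len J ≠ ⊤) :
    ∃ K : ℕ, maximalIdeal S ^ K ≤ J := by
  rw [len, Module.length_ne_top_iff, isFiniteLength_iff_isNoetherian_isArtinian] at h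
  have := h.2
  have : IsArtinianRing (S ⧸ J) := isArtinian_of_tower S this
  exact IsLocalRing.exists_maximalIdeal_pow_le_of_isArtinianRing_quotient J

lemma len_maximalIdeal : len (maximalIdeal S) = 1 := by
  rw [len, Module.length_eq_one_iff, isSimpleModule_iff_isCoatom]
  exact Ideal.isMaximal_def.1 (maximalIdeal.isMaximal S)

end local_ring

section flat
variable {R : Type u} {S : Type v} [CommRing R] [CommRing S] [IsLocalRing R] [IsLocalRing S]
  [Algebra R S] [IsLocalHom (algebraMap R S)] [Module.Flat R S]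

lemma len_map (A : Ideal R) :
    len (A.map (algebraMap R S)) =
      len A * len ((maximalIdeal R).map (algebraMap R S)) := by
  rw [len, len, len,
    (Algebra.TensorProduct.quotIdealMapEquivTensorQuot S A).toLinearEquiv.length_eq]
  exact IsLocalRing.length_baseChange R S (R ⧸ A)

end flat

end Vale.Agent.P202.Fibre
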