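import Mathlib
import Vale.Agent.P202.Length

/-!
A superficial element inside a coset, via the associated primes of the associated graded ring,
and the slope inequality for lengths of quotients by powers.
-/

namespace Vale.Agent.P202.Fibre

open IsLocalRing Polynomial

universe u

variable {S : Type u} [CommRing S]

/-- Avoidance of finitely many submodules by means of a family with unit differences. -/
lemma avoid (u : ℕ → S) (hu : ∀ i j, i ≠ j → IsUnit (u i - u j)) (M : Submodule S S)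
    (F : Set (Submodule S S)) (hF : F.Finite) (h : ∀ V ∈ F, ¬ M ≤ V) :
    ∃ y ∈ M, ∀ V ∈ F, y ∉ V := by
  induction F, hF using Set.Finite.induction_on with
  | empty => exact ⟨0, M.zero_mem, by simp⟩
  | @insert V F hV hF ih =>
    obtain ⟨y, hy, hyF⟩ := ih fun W hW => h W (Set.mem_insert_of_mem _ hW)
    by_cases hyV : y ∈ V
    swap
    · exact ⟨y, hy, by rintro W (rfl | hW); exacts [hyV, hyF W hW]⟩
    obtain ⟨z, hz, hzV⟩ := SetLike.not_le_iff_exists.1 (h V (Set.mem_insert _ _))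
    have hfin : (⋃ W ∈ insert V F, {i : ℕ | y + u i • z ∈ W}).Finite := by
      refine Set.Finite.biUnion (hF.insert V) fun W hW => Set.Subsingleton.finite ?_
      intro i hi j hj
      by_contra hij
      have hd : (u i - u j) • z ∈ W := by
        have := W.sub_mem hi hj
        rwa [show (y + u i • z) - (y + u j • z) = (u i - u j) • z by
          rw [sub_smul]; abel] at this
      have hzW : z ∈ W := (W.smul_mem_iff_of_isUnit (hu i j hij)).1 hd
      rcases hW with rfl | hW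
      · exact hzV hzW
      · have := W.sub_mem hi (W.smul_mem (u i) hzW)
        exact hyF W hW (by simpa using this)
    obtain ⟨i, hi⟩ := hfin.infinite_compl.nonempty
    refine ⟨y + u i • z, M.add_mem hy (M.smul_mem _ hz), fun W hW hmem => hi ?_⟩
    exact Set.mem_iUnion₂.2 ⟨W, hW, hmem⟩

section rees

variable (A : Ideal S)

/-- The ideal `A · B` of the Rees algebra `B` of `A`. -/
noncomputable def fibIdeal : Ideal (reesAlgebra A) := A.map (algebraMap S (reesAlgebra A))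

/-- The degree one part of the Rees algebra as a linear map. -/
noncomputable def degOne : A →ₗ[S] reesAlgebra A :=
  LinearMap.codRestrict (Subalgebra.toSubmodule (reesAlgebra A))
    ((monomial 1 : S →ₗ[S] S[X]).comp A.subtype)
    (fun g => reesAlgebra.monomial_mem.2 (by simp))

lemma coe_degOne (g : A) : ((degOne A g : reesAlgebra A) : S[X]) = monomial 1 (g : S) := rfl

lemma coeff_mem_of_mem_fibIdeal {f : reesAlgebra A} (hf : f ∈ fibIdeal A) (i : ℕ) :
    (f : S[X]).coeff i ∈ A ^ (i + 1) := by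
  unfold fibIdeal Ideal.map at hf
  induction hf using Submodule.span_induction generalizing i with
  | mem x hx =>
    obtain ⟨g, hg, rfl⟩ := hx
    have : ((algebraMap S (reesAlgebra A) g : reesAlgebra A) : S[X]) = C g := rfl
    rw [this, coeff_C]
    split_ifs with h
    · subst h; simpa using hg
    · exact zero_mem _
  | zero => simp
  | add x y _ _ hx hy => simpa using add_mem (hx i) (hy i)
  | smul b x _ hx =>
    rw [smul_eq_mul, MulMemClass.coe_mul, coeff_mul]
    refine sum_mem fun p hp => ?_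
    rw [← Finset.HasAntidiagonal.mem_antidiagonal.mp hp, add_assoc, pow_add]
    exact Ideal.mul_mem_mul (b.2 p.1) (hx p.2)

lemma monomial_mem_fibIdeal {i : ℕ} {a : S} (ha : a ∈ A ^ (i + 1)) :
    ∃ b ∈ fibIdeal A, ((b : reesAlgebra A) : S[X]) = monomial i a := by
  rw [pow_succ] at ha
  refine Submodule.mul_induction_on ha ?_ ?_
  · intro p hp q hq
    refine ⟨algebraMap S _ q * ⟨monomial i p, reesAlgebra.monomial_mem.2 hp⟩,
      Ideal.mul_mem_right _ _ (Ideal.mem_map_of_mem _ hq), ?_⟩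
    change C q * monomial i p = _
    rw [C_mul_monomial, mul_comm]
  · rintro x y ⟨b, hb, hb'⟩ ⟨c, hc, hc'⟩
    exact ⟨b + c, add_mem hb hc, by simp [hb', hc']⟩

lemma monomial_mem_span_degOne (j : ℕ) : ∀ a ∈ A ^ j,
    ∃ b ∈ (Ideal.span (Set.range (degOne A))) ^ j, ((b : reesAlgebra A) : S[X]) = monomial j a := by
  induction j with
  | zero => intro a _; exact ⟨algebraMap S _ a, by simp, rfl⟩
  | succ j ih =>
    intro a ha
    rw [pow_succ] at ha
    refine Submodule.mul_induction_on ha ?_ ?_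
    · intro p hp q hq
      obtain ⟨b, hb, hb'⟩ := ih p hp
      refine ⟨b * degOne A ⟨q, hq⟩, ?_, ?_⟩
      · rw [pow_succ]
        exact Ideal.mul_mem_mul hb (Ideal.subset_span ⟨⟨q, hq⟩, rfl⟩)
      · rw [MulMemClass.coe_mul, hb', coe_degOne, monomial_mul_monomial]
    · rintro x y ⟨b, hb, hb'⟩ ⟨c, hc, hc'⟩
      exact ⟨b + c, add_mem hb hc, by simp [hb', hc']⟩

/-- Choice of a good element of `A` for an ideal `Q` of an algebra `B` containing the image of
`A` under `φ`: multiplication by it is injective on high powers of the image of `A`, modulo `Q`. -/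
lemma exists_good {B : Type u} [CommRing B] [IsNoetherianRing B] [Algebra S B]
    (φ : A →ₗ[S] B) (Q : Ideal B) (u : ℕ → S)
    (hu : ∀ i j, i ≠ j → IsUnit (u i - u j)) (V₀ : Submodule S S) (hV₀ : ¬ A ≤ V₀) :
    ∃ y : A, (y : S) ∉ V₀ ∧ ∃ c : ℕ, ∀ j, c ≤ j →
      ∀ e ∈ (Ideal.span (Set.range φ)) ^ j, φ y * e ∈ Q → e ∈ Q := by
  classical
  let T : Set (Ideal B) := {P ∈ associatedPrimes B (B ⧸ Q) | ∃ g : A, φ g ∉ P}
  let V : Ideal B → Submodule S S := fun P =>
    Submodule.map A.subtype (Submodule.comap φ (P.restrictScalars S))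
  have hT : T.Finite := (associatedPrimes.finite B (B ⧸ Q)).subset fun P hP => hP.1
  obtain ⟨y, hyA, hy⟩ := avoid u hu A (insert V₀ (V '' T)) ((hT.image V).insert V₀) (by
    rintro W (rfl | ⟨P, ⟨_, g, hg⟩, rfl⟩)
    · exact hV₀
    · intro hle
      obtain ⟨g', hg', hgg⟩ := hle g.2
      obtain rfl : g' = g := Subtype.ext hgg
      exact hg hg')
  refine ⟨⟨y, hyA⟩, hy _ (Set.mem_insert _ _), ?_⟩
  let K : Submodule B (B ⧸ Q) :=
    LinearMap.ker (LinearMap.lsmul B (B ⧸ Q) (φ ⟨y, hyA⟩))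
  let b : Ideal B := Ideal.span (Set.range φ)
  have hb : b ≤ (Module.annihilator B K).radical := by
    rw [← Ideal.sInf_minimalPrimes]
    refine le_sInf fun P hP => ?_
    have hass : P ∈ associatedPrimes B (B ⧸ Q) :=
      associatedPrimes.subset_of_injective (f := K.subtype) K.injective_subtype
        (Module.associatedPrimes.minimalPrimes_annihilator_subset_associatedPrimes B K hP)
    have hxP : φ ⟨y, hyA⟩ ∈ P := hP.1.2 (Module.mem_annihilator.2 fun m => Subtype.ext m.2)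
    rw [Ideal.span_le]
    rintro _ ⟨g, rfl⟩
    by_contra hg
    refine hy (V P) (Set.mem_insert_of_mem _ ⟨P, ⟨hass, g, hg⟩, rfl⟩) ?_
    exact ⟨⟨y, hyA⟩, hxP, rfl⟩
  obtain ⟨m, hm⟩ := Ideal.exists_pow_le_of_le_radical_of_fg hb (IsNoetherian.noetherian b)
  obtain ⟨k₀, hk₀⟩ := Ideal.exists_pow_inf_eq_pow_smul b K
  refine ⟨k₀ + m, fun j hj e he heQ => ?_⟩
  set z : B ⧸ Q := Submodule.Quotient.mk e with hz
  have hz1 : z ∈ b ^ j • (⊤ : Submodule B (B ⧸ Q)) := by
    have := Submodule.smul_mem_smul he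
      (Submodule.mem_top (x := (Submodule.Quotient.mk (1 : B) : B ⧸ Q)))
    rwa [← Submodule.Quotient.mk_smul, smul_eq_mul, mul_one] at this
  have hz2 : z ∈ K := by
    rw [LinearMap.mem_ker, LinearMap.lsmul_apply, hz, ← Submodule.Quotient.mk_smul,
      Submodule.Quotient.mk_eq_zero]
    exact heQ
  have h1 : z ∈ b ^ (j - k₀) • K := by
    have : z ∈ b ^ j • (⊤ : Submodule B (B ⧸ Q)) ⊓ K := ⟨hz1, hz2⟩
    rw [hk₀ j (by omega)] at this
    exact Submodule.smul_mono le_rfl inf_le_right this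
  have h0 : z = 0 := by
    refine Submodule.smul_induction_on h1 ?_ (fun a b ha hb => by rw [ha, hb, add_zero])
    intro r hr n hn
    have hr' : r ∈ Module.annihilator B K :=
      hm (Ideal.pow_le_pow_right (by omega : m ≤ j - k₀) hr)
    exact congrArg Subtype.val (Module.mem_annihilator.1 hr' ⟨n, hn⟩)
  exact (Submodule.Quotient.mk_eq_zero _).1 h0

/-- An element of `A` which is superficial and avoids a given proper submodule of `A`. -/
lemma exists_superficial [IsNoetherianRing S] (u : ℕ → S)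
    (hu : ∀ i j, i ≠ j → IsUnit (u i - u j)) (V₀ : Submodule S S) (hV₀ : ¬ A ≤ V₀) :
    ∃ y ∈ A, y ∉ V₀ ∧ ∃ c : ℕ, ∀ q : ℕ, col (A ^ q) y ⊓ A ^ c ≤ A ^ (q - 1) := by
  obtain ⟨y, hy, c, hc⟩ := exists_good A (degOne A) (fibIdeal A) u hu V₀ hV₀
  have step : ∀ j, c ≤ j → ∀ a ∈ A ^ j, (y : S) * a ∈ A ^ (j + 2) → a ∈ A ^ (j + 1) := by
    intro j hj a ha hya
    obtain ⟨e, he, he'⟩ := monomial_mem_span_degOne A j a ha
    obtain ⟨d, hd, hd'⟩ := monomial_mem_fibIdeal A (i := j + 1) hya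
    have hed : degOne A y * e = d := by
      apply Subtype.ext
      rw [hd', MulMemClass.coe_mul, he', coe_degOne, monomial_mul_monomial, add_comm 1 j]
    have := coeff_mem_of_mem_fibIdeal A (hc j hj e he (hed ▸ hd)) j
    rwa [he', coeff_monomial, if_pos rfl] at this
  refine ⟨y, y.2, hy, c, fun q a ha => ?_⟩
  obtain ⟨hya, hac⟩ := ha
  have hya : (y : S) * a ∈ A ^ q := mem_col.1 hya
  have main : ∀ j, c ≤ j → j ≤ max c (q - 1) → a ∈ A ^ j := by
    intro j hj
    induction j, hj using Nat.le_induction with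
    | base => intro _; exact hac
    | succ j hj ih =>
      intro hj'
      exact step j hj a (ih (by omega)) (Ideal.pow_le_pow_right (by omega : j + 2 ≤ q) hya)
  exact Ideal.pow_le_pow_right (le_max_right _ _) (main _ (le_max_left _ _) le_rfl)

end rees

lemma sum_range_mul_div (h : ℕ → ℝ) (k N : ℕ) (hk : 0 < k) :
    ∑ s ∈ Finset.range (k * N), h (s / k) = k * ∑ i ∈ Finset.range N, h i := by
  induction N with
  | zero => simp
  | succ N ih =>
    rw [Nat.mul_succ, Finset.sum_range_add, ih, Finset.sum_range_succ, mul_add]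
    congr 1
    rw [Finset.sum_congr rfl (g := fun _ => h N), Finset.sum_const, Finset.card_range,
      nsmul_eq_mul]
    intro x hx
    have hx := Finset.mem_range.1 hx
    rw [Nat.mul_add_div hk, Nat.div_eq_of_lt hx, add_zero]

lemma sup_pow_le (J : Ideal S) (y : S) (q : ℕ) :
    (J ⊔ Ideal.span {y}) ^ q ≤ J ^ q ⊔ Ideal.span {y} := by
  induction q with
  | zero => simp
  | succ q ih =>
    rw [pow_succ]
    refine (Ideal.mul_mono_left ih).trans ?_
    rw [Ideal.sup_mul, Ideal.mul_sup, ← pow_succ]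
    have h1 : J ^ q * Ideal.span {y} ≤ Ideal.span {y} := Ideal.mul_le_inf.trans inf_le_right
    have h2 : Ideal.span {y} * (J ⊔ Ideal.span {y}) ≤ Ideal.span {y} :=
      Ideal.mul_le_inf.trans inf_le_left
    exact sup_le (sup_le le_sup_left (le_sup_of_le_right h1)) (le_sup_of_le_right h2)

variable [IsNoetherianRing S] [IsLocalRing S]

lemma len_pow_ne_top {J : Ideal S} {K : ℕ} (h : maximalIdeal S ^ K ≤ J) (N : ℕ) :
    len (J ^ N) ≠ ⊤ :=
  len_ne_top (K * N) (by rw [pow_mul]; exact Ideal.pow_right_mono h N)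

/-- The superficial element can be taken to generate `J + (w)` over `J`, with `y ^ k ∈ J`. -/
lemma exists_gen (u : ℕ → S) (hu : ∀ i j, i ≠ j → IsUnit (u i - u j))
    (J : Ideal S) (w : S) (hw : w ∉ J) (k : ℕ) (hwk : w ^ k ∈ J) :
    ∃ y : S, J ⊔ Ideal.span {w} = J ⊔ Ideal.span {y} ∧ y ^ k ∈ J ∧
      ∃ c : ℕ, ∀ q : ℕ, col ((J ⊔ Ideal.span {w}) ^ q) y ⊓ (J ⊔ Ideal.span {w}) ^ c ≤
        (J ⊔ Ideal.span {w}) ^ (q - 1) := by
  have hV : ¬ J ⊔ Ideal.span {w} ≤ J ⊔ maximalIdeal S * Ideal.span {w} := by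
    intro hle
    obtain ⟨j, hj, t, ht, hjt⟩ :=
      Submodule.mem_sup.1 (hle (Ideal.mem_sup_right (Ideal.mem_span_singleton_self w)))
    obtain ⟨a, ha, rfl⟩ := Ideal.mem_mul_span_singleton.1 ht
    have hu' : IsUnit (1 - a) := IsLocalRing.isUnit_one_sub_self_of_mem_nonunits a ha
    apply hw
    refine (Ideal.unit_mul_mem_iff_mem J hu').1 ?_
    have hrw : (1 - a) * w = j := by rw [sub_mul, one_mul]; exact sub_eq_iff_eq_add.2 hjt.symm
    rw [hrw]
    exact hj
  obtain ⟨y, hyA, hy, hc⟩ := exists_superficial (J ⊔ Ideal.span {w}) u hu _ hV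
  refine ⟨y, ?_, ?_, hc⟩
  · refine le_antisymm (sup_le le_sup_left ?_) (sup_le le_sup_left ?_)
    · rw [Ideal.span_singleton_le_iff_mem]
      obtain ⟨j₀, hj₀, t, ht, rfl⟩ := Submodule.mem_sup.1 hyA
      obtain ⟨a, rfl⟩ := Ideal.mem_span_singleton'.1 ht
      have hau : IsUnit a := by
        by_contra hau
        exact hy (Submodule.add_mem_sup hj₀
          (Ideal.mem_mul_span_singleton.2 ⟨a, (mem_maximalIdeal a).2 hau, rfl⟩))
      refine (Ideal.unit_mul_mem_iff_mem _ hau).1 ?_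
      have := (J ⊔ Ideal.span {j₀ + a * w}).sub_mem
        (Ideal.mem_sup_right (Ideal.mem_span_singleton_self (j₀ + a * w)))
        (Ideal.mem_sup_left hj₀)
      rwa [add_sub_cancel_left] at this
    · rw [Ideal.span_singleton_le_iff_mem]; exact hyA
  · obtain ⟨j₀, hj₀, t, ht, rfl⟩ := Submodule.mem_sup.1 hyA
    obtain ⟨a, rfl⟩ := Ideal.mem_span_singleton'.1 ht
    rw [← Ideal.Quotient.eq_zero_iff_mem, map_pow, map_add,
      Ideal.Quotient.eq_zero_iff_mem.2 hj₀, zero_add, map_mul, mul_pow, ← map_pow _ w,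
      Ideal.Quotient.eq_zero_iff_mem.2 hwk, mul_zero]

lemma step_le (A : Ideal S) (K : ℕ) (hK : maximalIdeal S ^ K ≤ A) (y : S) (c : ℕ)
    (hc : ∀ q : ℕ, col (A ^ q) y ⊓ A ^ c ≤ A ^ (q - 1)) (q : ℕ) :
    L (A ^ (q + 1) ⊔ Ideal.span {y}) ≤ L (A ^ (q + 1)) - L (A ^ q) + L (A ^ c) := by
  have hfin : ∀ r, len (A ^ r) ≠ ⊤ := len_pow_ne_top hK
  have e := len_eq_col_add (A ^ (q + 1)) y
  have f1 : len (col (A ^ (q + 1)) y) ≠ ⊤ := fun h => hfin (q + 1) (by rw [e, h, top_add])
  have f2 : len (A ^ (q + 1) ⊔ Ideal.span {y}) ≠ ⊤ :=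
    fun h => hfin (q + 1) (by rw [e, h, add_top])
  have hle : len (A ^ q) ≤ len (col (A ^ (q + 1)) y) + len (A ^ c) :=
    (len_mono (hc (q + 1))).trans (len_inf_le _ _)
  have hn : (len (A ^ q)).toNat ≤ (len (col (A ^ (q + 1)) y)).toNat + (len (A ^ c)).toNat := by
    rw [← ENat.toNat_add f1 (hfin c)]
    exact ENat.toNat_le_toNat hle (fun h => (ENat.add_eq_top.1 h).elim f1 (hfin c))
  have he : (len (A ^ (q + 1))).toNat =
      (len (col (A ^ (q + 1)) y)).toNat + (len (A ^ (q + 1) ⊔ Ideal.span {y})).toNat := by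
    rw [e, ENat.toNat_add f1 f2]
  have hn' : ((len (A ^ q)).toNat : ℝ) ≤
      (len (col (A ^ (q + 1)) y)).toNat + (len (A ^ c)).toNat := by exact_mod_cast hn
  simp only [L, he, Nat.cast_add]
  linarith

lemma sum_step_le (A : Ideal S) (K : ℕ) (hK : maximalIdeal S ^ K ≤ A) (y : S) (c : ℕ)
    (hc : ∀ q : ℕ, col (A ^ q) y ⊓ A ^ c ≤ A ^ (q - 1)) (N : ℕ) :
    ∑ i ∈ Finset.range N, L (A ^ (N - i) ⊔ Ideal.span {y}) ≤ L (A ^ N) + L (A ^ c) * N := by
  induction N with
  | zero => simp [L_nonneg]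
  | succ M ih =>
    rw [Finset.sum_range_succ']
    have : ∀ i ∈ Finset.range M, L (A ^ (M + 1 - (i + 1)) ⊔ Ideal.span {y}) =
        L (A ^ (M - i) ⊔ Ideal.span {y}) :=
      fun i _ => by rw [Nat.add_sub_add_right]
    rw [Finset.sum_congr rfl this, Nat.sub_zero, Nat.cast_succ]
    linarith [step_le A K hK y c hc M]

lemma term_le (J : Ideal S) (K : ℕ) (hK : maximalIdeal S ^ K ≤ J) (y : S) (k : ℕ)
    (hyk : y ^ k ∈ J) (N s : ℕ) (hs : s / k ≤ N) :
    L (col (J ^ N) (y ^ s) ⊔ Ideal.span {y}) ≤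
      L ((J ⊔ Ideal.span {y}) ^ (N - s / k) ⊔ Ideal.span {y}) := by
  refine L_le_L ?_ (ne_top_of_le_ne_top
    (len_pow_ne_top (hK.trans le_sup_left) (N - s / k)) (len_mono le_sup_left))
  refine sup_le ?_ le_sup_right
  refine (sup_pow_le J y _).trans (sup_le ?_ le_sup_right)
  refine le_trans ?_ le_sup_left
  intro a ha
  rw [mem_col]
  have hys : y ^ s ∈ J ^ (s / k) := by
    have hsplit : y ^ s = (y ^ k) ^ (s / k) * y ^ (s % k) := by
      rw [← pow_mul, ← pow_add, Nat.div_add_mod]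
    rw [hsplit]
    exact Ideal.mul_mem_right _ _ (Ideal.pow_mem_pow hyk _)
  have := Ideal.mul_mem_mul hys ha
  rwa [← pow_add, Nat.add_sub_cancel' hs] at this

lemma L_pow_le_sum (J : Ideal S) (K : ℕ) (hK : maximalIdeal S ^ K ≤ J) (y : S) (k : ℕ)
    (hk : 0 < k) (hyk : y ^ k ∈ J) (N : ℕ) :
    L (J ^ N) ≤ k * ∑ i ∈ Finset.range N,
      L ((J ⊔ Ideal.span {y}) ^ (N - i) ⊔ Ideal.span {y}) := by
  have hykN : y ^ (k * N) ∈ J ^ N := by
    rw [pow_mul]; exact Ideal.pow_mem_pow hyk N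
  have e := len_le_sum (J ^ N) y (k * N) hykN
  have hne : ∀ s ∈ Finset.range (k * N), len (col (J ^ N) (y ^ s) ⊔ Ideal.span {y}) ≠ ⊤ :=
    fun s hs => ne_top_of_le_ne_top (len_pow_ne_top hK N)
      (by rw [e]; exact Finset.single_le_sum (f := fun s =>
        len (col (J ^ N) (y ^ s) ⊔ Ideal.span {y})) (fun _ _ => zero_le) hs)
  have hsum : L (J ^ N) = ∑ s ∈ Finset.range (k * N),
      L (col (J ^ N) (y ^ s) ⊔ Ideal.span {y}) := by
    unfold L
    rw [e, ENat.toNat_sum hne, Nat.cast_sum]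
  rw [hsum, ← sum_range_mul_div
    (fun i => L ((J ⊔ Ideal.span {y}) ^ (N - i) ⊔ Ideal.span {y})) k N hk]
  refine Finset.sum_le_sum fun s hs => term_le J K hK y k hyk N s ?_
  exact ((Nat.div_lt_iff_lt_mul hk).2 (by rw [mul_comm]; exact Finset.mem_range.1 hs)).le

/-- Slope inequality: adjoining `w` with `w ^ k ∈ J` costs at most a factor `k`. -/
lemma slope_of_units (u : ℕ → S) (hu : ∀ i j, i ≠ j → IsUnit (u i - u j))
    (J : Ideal S) (K : ℕ) (hK : maximalIdeal S ^ K ≤ J) (w : S)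
    (k : ℕ) (hk : 0 < k) (hwk : w ^ k ∈ J) :
    ∃ C : ℝ, ∀ N : ℕ, L (J ^ N) ≤ k * (L ((J ⊔ Ideal.span {w}) ^ N) + C * N) := by
  by_cases hw : w ∈ J
  · refine ⟨0, fun N => ?_⟩
    rw [sup_eq_left.2 ((Ideal.span_singleton_le_iff_mem J).2 hw), zero_mul, add_zero]
    exact le_mul_of_one_le_left (L_nonneg _) (by exact_mod_cast hk)
  obtain ⟨y, hAy, hyk, c, hc⟩ := exists_gen u hu J w hw k hwk
  rw [hAy] at hc ⊢
  refine ⟨L ((J ⊔ Ideal.span {y}) ^ c), fun N => ?_⟩
  exact (L_pow_le_sum J K hK y k hk hyk N).trans (mul_le_mul_of_nonneg_left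
    (sum_step_le _ K (hK.trans le_sup_left) y c hc N) (Nat.cast_nonneg k))

end Vale.Agent.P202.Fibre
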