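import Mathlib
import Vale.Agent.P202.Length
import Vale.Agent.P202.Superficial

/-!
Comparison of the multiplicities of the two ends of a flat local homomorphism through the
closed fibre.
-/

namespace Vale.Agent.P202.Fibre

open IsLocalRing Polynomial Filter Topology

universe u v

section residue
variable {S : Type u} [CommRing S] [IsNoetherianRing S] [IsLocalRing S]

/-- Slope inequality for an arbitrary Noetherian local ring, by passing to `S(X)`. -/
lemma slope (J : Ideal S) (K : ℕ) (hK : maximalIdeal S ^ K ≤ J) (w : S)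
    (k : ℕ) (hk : 0 < k) (hwk : w ^ k ∈ J) :
    ∃ C : ℝ, ∀ N : ℕ, L (J ^ N) ≤ k * (L ((J ⊔ Ideal.span {w}) ^ N) + C * N) := by
  let P : Ideal S[X] := (maximalIdeal S).map C
  have : P.IsPrime := Ideal.isPrime_map_C_of_isPrime
  let T := Localization.AtPrime P
  have : Module.Flat S[X] T := IsLocalization.flat T P.primeCompl
  have : Module.Flat S T := Module.Flat.trans S S[X] T
  have hmax : (maximalIdeal S).map (algebraMap S T) = maximalIdeal T := by
    rw [← IsLocalization.AtPrime.map_eq_maximalIdeal P T, IsScalarTower.algebraMap_eq S S[X] T,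
      ← Ideal.map_map]
    rfl
  have : IsLocalHom (algebraMap S T) := by
    refine ⟨fun a ha => ?_⟩
    by_contra hna
    have : algebraMap S T a ∈ maximalIdeal T :=
      hmax ▸ Ideal.mem_map_of_mem _ ((mem_maximalIdeal a).2 hna)
    exact (mem_maximalIdeal _).1 this ha
  have hlen : ∀ A : Ideal S, len (A.map (algebraMap S T)) = len A := fun A => by
    rw [len_map, hmax, len_maximalIdeal, mul_one]
  have hu : ∀ i j, i ≠ j → IsUnit
      ((fun i : ℕ => algebraMap S[X] T (X ^ i)) i - (fun i : ℕ => algebraMap S[X] T (X ^ i)) j) := by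
    intro i j hij
    change IsUnit (algebraMap S[X] T (X ^ i) - algebraMap S[X] T (X ^ j))
    rw [← map_sub]
    refine IsLocalization.map_units T (⟨X ^ i - X ^ j, ?_⟩ : P.primeCompl)
    intro hmem
    have h := Ideal.mem_map_C_iff.1 hmem i
    rw [coeff_sub, coeff_X_pow, coeff_X_pow, if_pos rfl, if_neg hij, sub_zero] at h
    exact (Ideal.ne_top_iff_one _).1 (maximalIdeal.isMaximal S).ne_top h
  obtain ⟨Cst, hC⟩ := slope_of_units (fun i : ℕ => algebraMap S[X] T (X ^ i)) hu
    (J.map (algebraMap S T)) K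
    (by rw [← hmax, ← Ideal.map_pow]; exact Ideal.map_mono hK) (algebraMap S T w) k hk
    (by rw [← map_pow]; exact Ideal.mem_map_of_mem _ hwk)
  refine ⟨Cst, fun N => ?_⟩
  have h := hC N
  rw [← Set.image_singleton, ← Ideal.map_span, ← Ideal.map_sup, ← Ideal.map_pow,
    ← Ideal.map_pow] at h
  simpa only [L, hlen] using h

end residue

/-- `J` has Hilbert–Samuel growth at most `c * N ^ d`, up to any positive error. -/
def UB {S : Type u} [CommRing S] (J : Ideal S) (d : ℕ) (c : ℝ) : Prop :=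
  ∀ ε > (0 : ℝ), ∀ᶠ N : ℕ in atTop, L (J ^ N) ≤ (c + ε) * (N : ℝ) ^ d

section asymptotics
variable {S : Type u} [CommRing S] [IsNoetherianRing S] [IsLocalRing S]

lemma UB_step {d : ℕ} (hd : 2 ≤ d) (J : Ideal S) (K : ℕ) (hK : maximalIdeal S ^ K ≤ J) (w : S)
    (k : ℕ) (hk : 0 < k) (hwk : w ^ k ∈ J) (c : ℝ) (h : UB (J ⊔ Ideal.span {w}) d c) :
    UB J d (k * c) := by
  obtain ⟨C, hC⟩ := slope J K hK w k hk hwk
  intro ε hε
  have hk' : (0 : ℝ) < k := by exact_mod_cast hk
  filter_upwards [h (ε / (2 * k)) (by positivity), eventually_ge_atTop 1,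
    eventually_ge_atTop ⌈2 * k * C / ε⌉₊] with N hN h1 h2
  have hN1 : (1 : ℝ) ≤ N := by exact_mod_cast h1
  have hpow : (N : ℝ) ^ 2 ≤ (N : ℝ) ^ d := pow_le_pow_right₀ hN1 hd
  have h2' : 2 * k * C / ε ≤ (N : ℝ) := Nat.ceil_le.1 h2
  rw [div_le_iff₀ hε] at h2'
  have key : (k : ℝ) * (C * N) ≤ ε / 2 * (N : ℝ) ^ d := by
    have : (k : ℝ) * (C * N) ≤ ε / 2 * (N : ℝ) ^ 2 := by nlinarith
    exact this.trans (mul_le_mul_of_nonneg_left hpow (by positivity))
  calc L (J ^ N) ≤ k * (L ((J ⊔ Ideal.span {w}) ^ N) + C * N) := hC N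
    _ ≤ k * ((c + ε / (2 * k)) * (N : ℝ) ^ d) + k * (C * N) := by
        rw [mul_add]
        gcongr
    _ ≤ k * ((c + ε / (2 * k)) * (N : ℝ) ^ d) + ε / 2 * (N : ℝ) ^ d := by gcongr
    _ = (k * c + ε) * (N : ℝ) ^ d := by field_simp; ring

/-- The growth bound propagates down a chain `P ⊆ P + (w₀) ⊆ ⋯ ⊆ 𝔫`. -/
lemma UB_chain {d : ℕ} (hd : 2 ≤ d) (c₀ : ℝ) (h₀ : UB (maximalIdeal S) d c₀) :
    ∀ (c : ℕ) (P : Ideal S) (K : ℕ), maximalIdeal S ^ K ≤ P → ∀ (w : Fin c → S) (k : Fin c → ℕ),
      maximalIdeal S = P ⊔ Ideal.span (Set.range w) →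
      (∀ i, w i ^ k i ∈ P ⊔ Ideal.span (w '' {j | j < i})) →
      UB P d ((∏ i, (k i : ℝ)) * c₀) := by
  intro c
  induction c with
  | zero =>
    intro P K _ w k hgen _
    have : Set.range w = ∅ := Set.range_eq_empty _
    rw [this, Ideal.span_empty, sup_bot_eq] at hgen
    simpa [← hgen] using h₀
  | succ c ih =>
    intro P K hK w k hgen hpow
    have hlt : {j : Fin (c + 1) | j < 0} = ∅ := by
      ext j; simp
    have h0 : w 0 ^ k 0 ∈ P := by simpa [hlt] using hpow 0
    have hk0 : 0 < k 0 := by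
      rcases Nat.eq_zero_or_pos (k 0) with h | h
      · exfalso
        rw [h, pow_zero] at h0
        have : (1 : S) ∈ maximalIdeal S := hgen ▸ Ideal.mem_sup_left h0
        exact (Ideal.ne_top_iff_one _).1 (maximalIdeal.isMaximal S).ne_top this
      · exact h
    have hrec := ih (P ⊔ Ideal.span {w 0}) K (hK.trans le_sup_left) (w ∘ Fin.succ) (k ∘ Fin.succ)
      (by
        rw [hgen, sup_assoc, ← Ideal.span_union]
        congr 2
        ext x
        simp [Fin.exists_fin_succ, eq_comm])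
      (by
        intro i
        refine (?_ : P ⊔ Ideal.span (w '' {j | j < i.succ}) ≤ _) (hpow i.succ)
        refine sup_le (le_sup_of_le_left le_sup_left) (Ideal.span_le.2 ?_)
        rintro _ ⟨j, hj, rfl⟩
        induction j using Fin.cases with
        | zero => exact Ideal.mem_sup_left (Ideal.mem_sup_right (Ideal.mem_span_singleton_self _))
        | succ j =>
          exact Ideal.mem_sup_right (Ideal.subset_span ⟨j, Fin.succ_lt_succ_iff.1 hj, rfl⟩))
    have := UB_step hd P K hK (w 0) (k 0) hk0 h0 _ hrec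
    rw [Fin.prod_univ_succ, mul_assoc]
    simpa [Function.comp_def] using this

/-- The growth bound passes to a smaller ideal whose powers absorb those of `P`, shifted by one. -/
lemma UB_shift {d : ℕ} (P I : Ideal S) (hPI : ∀ N : ℕ, P ^ (N + 1) ≤ I ^ N)
    {K : ℕ} (hK : maximalIdeal S ^ K ≤ P) (c : ℝ) (h : UB P d c) : UB I d c := by
  intro ε hε
  have hlim : Tendsto (fun N : ℕ => (c + ε / 2) * (1 + 1 / (N : ℝ)) ^ d) atTop
      (𝓝 (c + ε / 2)) := by
    have h0 : Tendsto (fun N : ℕ => 1 / (N : ℝ)) atTop (𝓝 0) :=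
      tendsto_one_div_atTop_nhds_zero_nat
    simpa using ((h0.const_add 1).pow d).const_mul (c + ε / 2)
  filter_upwards [(tendsto_add_atTop_nat 1).eventually (h (ε / 2) (by positivity)),
    hlim.eventually (eventually_le_nhds (by linarith : c + ε / 2 < c + ε)),
    eventually_ge_atTop 1] with N hN hN' h1
  have hN0 : (0 : ℝ) < N := by exact_mod_cast h1
  calc L (I ^ N) ≤ L (P ^ (N + 1)) := L_le_L (hPI N) (len_pow_ne_top hK _)
    _ ≤ (c + ε / 2) * ((N + 1 : ℕ) : ℝ) ^ d := hN
    _ = (c + ε / 2) * (1 + 1 / (N : ℝ)) ^ d * (N : ℝ) ^ d := by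
        rw [mul_assoc, ← mul_pow]; congr 2; push_cast; field_simp
    _ ≤ (c + ε) * (N : ℝ) ^ d := by gcongr

end asymptotics

section socle
variable {R : Type u} {S : Type v} [CommRing R] [CommRing S] [IsLocalRing R] [IsLocalRing S]
  [IsNoetherianRing R] [Algebra R S] [Module.Flat R S]

/-- A minimal finite generating family of the maximal ideal: relations have coefficients in it. -/
lemma exists_minimal_gens : ∃ G : Finset R, Ideal.span (G : Set R) = maximalIdeal R ∧
    ∀ a : G → R, ∑ x : G, (x : R) * a x = 0 → ∀ x, a x ∈ maximalIdeal R := by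
  classical
  obtain ⟨G₁, hG₁⟩ := (IsNoetherian.noetherian (maximalIdeal R) : (maximalIdeal R).FG)
  have hex : ∃ n, ∃ G : Finset R, G.card = n ∧ Ideal.span (G : Set R) = maximalIdeal R :=
    ⟨_, G₁, rfl, hG₁⟩
  obtain ⟨G, hcard, hG⟩ := Nat.find_spec hex
  refine ⟨G, hG, fun a ha x => ?_⟩
  by_contra hx
  have hunit : IsUnit (a x) := by
    by_contra h
    exact hx ((mem_maximalIdeal _).2 h)
  have hxs : (x : R) ∈ Ideal.span ((G.erase x : Finset R) : Set R) := by
    rw [← Ideal.unit_mul_mem_iff_mem _ hunit, mul_comm]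
    have hsum : (x : R) * a x = -∑ y ∈ Finset.univ.erase x, (y : R) * a y := by
      rw [eq_neg_iff_add_eq_zero, Finset.add_sum_erase _ (fun y : G => (y : R) * a y) (Finset.mem_univ x), ha]
    rw [hsum]
    refine neg_mem (sum_mem fun y hy => Ideal.mul_mem_right _ _ (Ideal.subset_span ?_))
    exact Finset.mem_coe.2 (Finset.mem_erase.2 ⟨fun h => (Finset.ne_of_mem_erase hy) (Subtype.ext h),
      y.2⟩)
  have hspan : Ideal.span ((G.erase x : Finset R) : Set R) = maximalIdeal R := by
    refine le_antisymm (hG ▸ Ideal.span_mono (Finset.coe_subset.2 (Finset.erase_subset _ _)))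
      (hG ▸ Ideal.span_le.2 fun y hy => ?_)
    by_cases hyx : y = x
    · exact hyx ▸ hxs
    · exact Ideal.subset_span (Finset.mem_coe.2 (Finset.mem_erase.2 ⟨hyx, hy⟩))
  have := Nat.find_min hex (m := (G.erase x).card)
    (hcard ▸ Finset.card_erase_lt_of_mem x.2)
  exact this ⟨_, rfl, hspan⟩

/-- The socle lemma: if `𝔪S` and one element do not generate `𝔫`, then an element multiplying
`𝔫` into `𝔪S` multiplies it into `𝔪S · 𝔫`. -/
lemma socle (_hI : (maximalIdeal R).map (algebraMap R S) ≤ maximalIdeal S)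
    (z z' : S) (hz : z ∈ maximalIdeal S) (hz' : z' ∈ maximalIdeal S)
    (h1 : z ∉ (maximalIdeal R).map (algebraMap R S) ⊔ maximalIdeal S ^ 2)
    (h2 : z' ∉ (maximalIdeal R).map (algebraMap R S) ⊔ Ideal.span {z})
    (s : S) (hs : ∀ x ∈ maximalIdeal S, s * x ∈ (maximalIdeal R).map (algebraMap R S))
    (w : S) (hw : w ∈ maximalIdeal S) :
    s * w ∈ (maximalIdeal R).map (algebraMap R S) * maximalIdeal S := by
  classical
  obtain ⟨G, hG, hrel⟩ := exists_minimal_gens (R := R)
  set I := (maximalIdeal R).map (algebraMap R S) with hIdef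
  have hcoef : ∀ t ∈ I, ∃ f : G → S, ∑ x, f x * algebraMap R S x = t := by
    intro t ht
    have : I = Ideal.span (Set.range fun x : G => algebraMap R S x) := by
      rw [hIdef, ← hG, Ideal.map_span]
      congr 1
      ext; simp
    rw [this] at ht
    exact Ideal.mem_span_range_iff_exists_fun.1 ht
  have hzero : ∀ f : G → S, ∑ x, f x * algebraMap R S x = 0 → ∀ x, f x ∈ I := by
    intro f hf
    obtain ⟨n, a, y, hfy, ha⟩ := Module.Flat.isTrivialRelation_of_sum_smul_eq_zero
      (f := fun x : G => (x : R)) (x := f)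
      (by simpa [Algebra.smul_def, mul_comm] using hf)
    intro x
    rw [hfy x]
    refine sum_mem fun j _ => ?_
    rw [Algebra.smul_def]
    exact Ideal.mul_mem_right _ _ (Ideal.mem_map_of_mem _ (hrel (fun x => a x j) (ha j) x))
  obtain ⟨uu, huu⟩ := hcoef _ (hs w hw)
  obtain ⟨p, hp⟩ := hcoef _ (hs z hz)
  obtain ⟨q, hq⟩ := hcoef _ (hs z' hz')
  have r1 := hzero (fun x => z * uu x - w * p x) (by
    simp only [sub_mul, Finset.sum_sub_distrib, mul_assoc, ← Finset.mul_sum, huu, hp]
    ring)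
  have r2 := hzero (fun x => z' * p x - z * q x) (by
    simp only [sub_mul, Finset.sum_sub_distrib, mul_assoc, ← Finset.mul_sum, hp, hq]
    ring)
  rw [← huu]
  refine sum_mem fun x _ => ?_
  rw [mul_comm (uu x)]
  refine Ideal.mul_mem_mul (Ideal.mem_map_of_mem _ (hG ▸ Ideal.subset_span x.2)) ?_
  have hp' : p x ∈ maximalIdeal S := by
    by_contra h
    have hu : IsUnit (p x) := by
      by_contra h'
      exact h ((mem_maximalIdeal _).2 h')
    refine h2 ?_
    rw [← Ideal.unit_mul_mem_iff_mem _ hu, mul_comm]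
    have := add_mem (Ideal.mem_sup_left (T := Ideal.span {z}) (r2 x))
      (Ideal.mem_sup_right (S := I) (Ideal.mul_mem_right (q x) _ (Ideal.mem_span_singleton_self z)))
    simpa using this
  by_contra h
  have hu : IsUnit (uu x) := by
    by_contra h'
    exact h ((mem_maximalIdeal _).2 h')
  refine h1 ?_
  rw [← Ideal.unit_mul_mem_iff_mem _ hu, mul_comm]
  have hwp : w * p x ∈ maximalIdeal S ^ 2 := by rw [sq]; exact Ideal.mul_mem_mul hw hp'
  have := add_mem (Ideal.mem_sup_left (T := maximalIdeal S ^ 2) (r1 x))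
    (Ideal.mem_sup_right (S := I) hwp)
  simpa using this

/-- An ideal killing the fibre's maximal ideal has its powers absorbed by those of `𝔪S`. -/
lemma pow_succ_le [IsNoetherianRing S] (hI : (maximalIdeal R).map (algebraMap R S) ≤ maximalIdeal S)
    (hne : ∀ z : S, maximalIdeal S ≠ (maximalIdeal R).map (algebraMap R S) ⊔ Ideal.span {z})
    (P : Ideal S) (hPn : P ≤ maximalIdeal S)
    (hP : P * maximalIdeal S ≤ (maximalIdeal R).map (algebraMap R S)) (N : ℕ) :
    P ^ (N + 1) ≤ ((maximalIdeal R).map (algebraMap R S)) ^ N := by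
  set I := (maximalIdeal R).map (algebraMap R S)
  obtain ⟨z, hz, h1⟩ : ∃ z ∈ maximalIdeal S, z ∉ I ⊔ maximalIdeal S ^ 2 := by
    refine SetLike.not_le_iff_exists.1 fun hle => hne 0 ?_
    have : maximalIdeal S ≤ I :=
      Submodule.le_of_le_smul_of_le_jacobson_bot (IsNoetherian.noetherian _)
        (le_of_eq (IsLocalRing.jacobson_eq_maximalIdeal ⊥ bot_ne_top).symm)
        (by rwa [smul_eq_mul, ← sq])
    simpa using le_antisymm this hI
  obtain ⟨z', hz', h2⟩ : ∃ z' ∈ maximalIdeal S, z' ∉ I ⊔ Ideal.span {z} := by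
    refine SetLike.not_le_iff_exists.1 fun hle => hne z (le_antisymm hle ?_)
    exact sup_le hI ((Ideal.span_singleton_le_iff_mem _).2 hz)
  have hPI : P * maximalIdeal S ≤ I * maximalIdeal S :=
    Ideal.mul_le.2 fun s hs x hx => socle hI z z' hz hz' h1 h2 s
      (fun y hy => hP (Ideal.mul_mem_mul hs hy)) x hx
  have key : ∀ M : ℕ, P ^ M * maximalIdeal S ≤ I ^ M * maximalIdeal S := by
    intro M
    induction M with
    | zero => simp
    | succ M ih =>
      calc P ^ (M + 1) * maximalIdeal S = P ^ M * (P * maximalIdeal S) := by rw [pow_succ, mul_assoc]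
        _ ≤ P ^ M * (I * maximalIdeal S) := Ideal.mul_mono_right hPI
        _ = I * (P ^ M * maximalIdeal S) := by rw [mul_left_comm]
        _ ≤ I * (I ^ M * maximalIdeal S) := Ideal.mul_mono_right ih
        _ = I ^ (M + 1) * maximalIdeal S := by rw [pow_succ', mul_assoc]
  calc P ^ (N + 1) = P ^ N * P := pow_succ P N
    _ ≤ P ^ N * maximalIdeal S := Ideal.mul_mono_right hPn
    _ ≤ I ^ N * maximalIdeal S := key N
    _ ≤ I ^ N := Ideal.mul_le_inf.trans inf_le_left

end socle

section main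
variable {R : Type u} {S : Type v} [CommRing R] [CommRing S] [IsNoetherianRing R]
  [IsNoetherianRing S] [IsLocalRing R] [IsLocalRing S] [Algebra R S]
  [IsLocalHom (algebraMap R S)] [Module.Flat R S]

lemma map_le : (maximalIdeal R).map (algebraMap R S) ≤ maximalIdeal S :=
  Ideal.map_le_iff_le_comap.2 fun a ha => (mem_maximalIdeal _).2 fun h =>
    (mem_maximalIdeal a).1 ha (isUnit_of_map_unit (algebraMap R S) a h)

lemma one_le_toNat (hfib : len ((maximalIdeal R).map (algebraMap R S)) ≠ ⊤) :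
    1 ≤ (len ((maximalIdeal R).map (algebraMap R S))).toNat := by
  have hne : len ((maximalIdeal R).map (algebraMap R S)) ≠ 0 := by
    intro h
    rw [len, Module.length_eq_zero_iff, Submodule.Quotient.subsingleton_iff] at h
    exact (maximalIdeal.isMaximal S).ne_top (top_le_iff.1 (h ▸ map_le))
  rw [Nat.one_le_iff_ne_zero, ne_eq, ENat.toNat_eq_zero]
  exact fun h => h.elim hne hfib

lemma eS_nonneg {d : ℕ} {eS : ℝ}
    (hS : Tendsto (fun N : ℕ => (d.factorial : ℝ) * L (maximalIdeal S ^ N) / (N : ℝ) ^ d)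
      atTop (𝓝 eS)) : 0 ≤ eS :=
  ge_of_tendsto' hS fun N => by have := L_nonneg (maximalIdeal S ^ N); positivity

/-- From a growth bound on the powers of `𝔪S` to a bound on the multiplicity of `R`. -/
theorem compare {d : ℕ} {eR b : ℝ}
    (hR : Tendsto (fun N : ℕ => (d.factorial : ℝ) * L (maximalIdeal R ^ N) / (N : ℝ) ^ d)
      atTop (𝓝 eR))
    (hUB : UB ((maximalIdeal R).map (algebraMap R S)) d (b / d.factorial)) :
    ((len ((maximalIdeal R).map (algebraMap R S))).toNat : ℝ) * eR ≤ b := by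
  set I := (maximalIdeal R).map (algebraMap R S) with hIdef
  have hfac : (0 : ℝ) < d.factorial := by exact_mod_cast d.factorial_pos
  have hL : ∀ N : ℕ, L (I ^ N) = L (maximalIdeal R ^ N) * ((len I).toNat : ℝ) := by
    intro N
    rw [L, L, hIdef, ← Ideal.map_pow, len_map, ENat.toNat_mul, Nat.cast_mul]
  refine le_of_forall_pos_le_add fun δ hδ => ?_
  refine le_of_tendsto (hR.const_mul ((len I).toNat : ℝ)) ?_
  filter_upwards [hUB (δ / d.factorial) (by positivity), eventually_ge_atTop 1] with N hN h1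
  have hN0 : (0 : ℝ) < (N : ℝ) ^ d := by
    have : (0 : ℝ) < N := by exact_mod_cast h1
    positivity
  rw [hL] at hN
  rw [← mul_div_assoc, div_le_iff₀ hN0]
  calc ((len I).toNat : ℝ) * (d.factorial * L (maximalIdeal R ^ N))
      = d.factorial * (L (maximalIdeal R ^ N) * ((len I).toNat : ℝ)) := by ring
    _ ≤ d.factorial * ((b / d.factorial + δ / d.factorial) * (N : ℝ) ^ d) :=
        mul_le_mul_of_nonneg_left hN hfac.le
    _ = (b + δ) * (N : ℝ) ^ d := by field_simp

omit [IsNoetherianRing R] [Algebra R S] [IsLocalHom (algebraMap R S)] [Module.Flat R S]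
  [IsNoetherianRing S] in
lemma UB_maximalIdeal {d : ℕ} {eS : ℝ}
    (hS : Tendsto (fun N : ℕ => (d.factorial : ℝ) * L (maximalIdeal S ^ N) / (N : ℝ) ^ d)
      atTop (𝓝 eS)) : UB (maximalIdeal S) d (eS / d.factorial) := by
  have hfac : (0 : ℝ) < d.factorial := by exact_mod_cast d.factorial_pos
  intro ε hε
  filter_upwards [hS.eventually (eventually_le_nhds (by linarith [mul_pos hfac hε] :
    eS < eS + d.factorial * ε)), eventually_ge_atTop 1] with N hN h1
  have hN0 : (0 : ℝ) < (N : ℝ) ^ d := by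
    have : (0 : ℝ) < N := by exact_mod_cast h1
    positivity
  rw [div_le_iff₀ hN0] at hN
  rw [div_add' _ _ _ hfac.ne', div_mul_eq_mul_div, le_div_iff₀ hfac]
  linarith

omit [IsNoetherianRing R] [Algebra R S] [IsLocalHom (algebraMap R S)] [Module.Flat R S] in
/-- The powers of an ideal containing `𝔫 ^ t` grow at most `t ^ d` times as fast. -/
lemma UB_of_pow_le {d t : ℕ} (ht : 1 ≤ t) {eS : ℝ}
    (hS : Tendsto (fun N : ℕ => (d.factorial : ℝ) * L (maximalIdeal S ^ N) / (N : ℝ) ^ d)
      atTop (𝓝 eS)) (J : Ideal S) (hJ : maximalIdeal S ^ t ≤ J) :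
    UB J d ((t : ℝ) ^ d * eS / d.factorial) := by
  intro ε hε
  have ht' : (0 : ℝ) < (t : ℝ) ^ d := by
    have : (0 : ℝ) < t := by exact_mod_cast ht
    positivity
  have hmul : Tendsto (fun N : ℕ => t * N) atTop atTop :=
    tendsto_id.const_mul_atTop' ht
  filter_upwards [hmul.eventually (UB_maximalIdeal hS (ε / (t : ℝ) ^ d) (by positivity))] with N hN
  have hle : maximalIdeal S ^ (t * N) ≤ J ^ N := by
    rw [pow_mul]; exact Ideal.pow_right_mono hJ N
  calc L (J ^ N) ≤ L (maximalIdeal S ^ (t * N)) := L_le_L hle (len_pow_ne_top (K := 1) (by simp) _)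
    _ ≤ (eS / d.factorial + ε / (t : ℝ) ^ d) * ((t * N : ℕ) : ℝ) ^ d := hN
    _ = ((t : ℝ) ^ d * eS / d.factorial + ε) * (N : ℝ) ^ d := by
        push_cast; rw [mul_pow]; field_simp

lemma two_le_toNat (hfib : len ((maximalIdeal R).map (algebraMap R S)) ≠ ⊤)
    (hne : maximalIdeal S ≠ (maximalIdeal R).map (algebraMap R S)) :
    2 ≤ (len ((maximalIdeal R).map (algebraMap R S))).toNat := by
  set I := (maximalIdeal R).map (algebraMap R S)
  obtain ⟨x, hx, hxI⟩ := SetLike.not_le_iff_exists.1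
    (fun h => hne (le_antisymm h map_le) : ¬ maximalIdeal S ≤ I)
  have h1 : col I x ≤ maximalIdeal S := IsLocalRing.le_maximalIdeal fun h => hxI <| by
    simpa [mem_col] using (h.symm ▸ Submodule.mem_top : (1 : S) ∈ col I x)
  have h2 : I ⊔ Ideal.span {x} ≤ maximalIdeal S :=
    sup_le map_le ((Ideal.span_singleton_le_iff_mem _).2 hx)
  have : (1 + 1 : ℕ∞) ≤ len I := by
    rw [len_eq_col_add I x, ← len_maximalIdeal (S := S)]
    exact add_le_add (len_mono h1) (len_mono h2)
  rw [one_add_one_eq_two] at this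
  have := ENat.toNat_le_toNat this hfib
  simpa using this

/-- The main comparison. -/
theorem fibre_bound {d : ℕ} (hd : 2 ≤ d) {eR eS : ℝ}
    (hR : Tendsto (fun N : ℕ => (d.factorial : ℝ) * L (maximalIdeal R ^ N) / (N : ℝ) ^ d)
      atTop (𝓝 eR))
    (hS : Tendsto (fun N : ℕ => (d.factorial : ℝ) * L (maximalIdeal S ^ N) / (N : ℝ) ^ d)
      atTop (𝓝 eS))
    (hfib : len ((maximalIdeal R).map (algebraMap R S)) ≠ ⊤)
    (P : Ideal S)
    (hP : P = (maximalIdeal R).map (algebraMap R S) ∨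
      ((∀ z : S, maximalIdeal S ≠ (maximalIdeal R).map (algebraMap R S) ⊔ Ideal.span {z}) ∧
        (maximalIdeal R).map (algebraMap R S) ≤ P ∧
        P * maximalIdeal S ≤ (maximalIdeal R).map (algebraMap R S)))
    (c : ℕ) (w : Fin c → S) (k : Fin c → ℕ)
    (hgen : maximalIdeal S = P ⊔ Ideal.span (Set.range w))
    (hpow : ∀ i, w i ^ k i ∈ P ⊔ Ideal.span (w '' {j | j < i})) :
    ((len ((maximalIdeal R).map (algebraMap R S))).toNat : ℝ) * eR ≤
      (∏ i, (k i : ℝ)) * eS := by
  set I := (maximalIdeal R).map (algebraMap R S) with hIdef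
  obtain ⟨K, hK⟩ := exists_pow_le_of_len_ne_top hfib
  have hIP : I ≤ P := by
    rcases hP with h | ⟨_, h, _⟩
    exacts [h ▸ le_rfl, h]
  have hPn : P ≤ maximalIdeal S := hgen ▸ le_sup_left
  have hPI : ∀ N : ℕ, P ^ (N + 1) ≤ I ^ N := by
    rcases hP with h | ⟨h1, _, h3⟩
    · intro N
      rw [h]
      exact Ideal.pow_le_pow_right (Nat.le_succ N)
    · exact fun N => pow_succ_le map_le h1 P hPn h3 N
  refine compare hR ?_
  rw [mul_div_assoc]
  exact UB_shift P I hPI (hK.trans hIP) _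
    (UB_chain hd _ (UB_maximalIdeal hS) c P K (hK.trans hIP) w k hgen hpow)

/-- The bound in terms of the Loewy length of the closed fibre. -/
theorem loewy_bound {d t : ℕ} (ht : 1 ≤ t) {eR eS : ℝ}
    (hR : Tendsto (fun N : ℕ => (d.factorial : ℝ) * L (maximalIdeal R ^ N) / (N : ℝ) ^ d)
      atTop (𝓝 eR))
    (hS : Tendsto (fun N : ℕ => (d.factorial : ℝ) * L (maximalIdeal S ^ N) / (N : ℝ) ^ d)
      atTop (𝓝 eS))
    (htI : maximalIdeal S ^ (t + 1) ≤ (maximalIdeal R).map (algebraMap R S))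
    (hne : ∀ z : S, maximalIdeal S ≠ (maximalIdeal R).map (algebraMap R S) ⊔ Ideal.span {z}) :
    ((len ((maximalIdeal R).map (algebraMap R S))).toNat : ℝ) * eR ≤ (t : ℝ) ^ d * eS := by
  set I := (maximalIdeal R).map (algebraMap R S) with hIdef
  have hPn : I ⊔ maximalIdeal S ^ t ≤ maximalIdeal S :=
    sup_le map_le (Ideal.pow_le_self (by omega))
  have h3 : (I ⊔ maximalIdeal S ^ t) * maximalIdeal S ≤ I := by
    rw [Ideal.sup_mul, ← pow_succ]
    exact sup_le (Ideal.mul_le_inf.trans inf_le_left) htI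
  refine compare hR ?_
  exact UB_shift (I ⊔ maximalIdeal S ^ t) I (pow_succ_le map_le hne _ hPn h3)
    (K := t) le_sup_right _ (UB_of_pow_le ht hS _ le_sup_right)

/-- Lech's inequality for square-zero closed fibres. -/
theorem square_zero {d : ℕ} (hd : 2 ≤ d) {eR eS : ℝ}
    (hR : Tendsto (fun N : ℕ => (d.factorial : ℝ) * L (maximalIdeal R ^ N) / (N : ℝ) ^ d)
      atTop (𝓝 eR))
    (hS : Tendsto (fun N : ℕ => (d.factorial : ℝ) * L (maximalIdeal S ^ N) / (N : ℝ) ^ d)
      atTop (𝓝 eS))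
    (hfib : len ((maximalIdeal R).map (algebraMap R S)) ≠ ⊤)
    (hsq : maximalIdeal S ^ 2 ≤ (maximalIdeal R).map (algebraMap R S)) : eR ≤ eS := by
  have hlam1 := one_le_toNat (R := R) (S := S) hfib
  have hS0 := eS_nonneg hS
  have hR0 : 0 ≤ eR := eS_nonneg (S := R) hR
  set I := (maximalIdeal R).map (algebraMap R S) with hIdef
  have hlam : (1 : ℝ) ≤ ((len I).toNat : ℝ) := by exact_mod_cast hlam1
  by_cases hne : ∀ z : S, maximalIdeal S ≠ I ⊔ Ideal.span {z}
  · have h := loewy_bound (t := 1) le_rfl hR hS (by simpa using hsq) hne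
    rw [Nat.cast_one, one_pow, one_mul, ← hIdef] at h
    exact (le_mul_of_one_le_left hR0 hlam).trans h
  push Not at hne
  obtain ⟨z, hz⟩ := hne
  by_cases hI : maximalIdeal S = I
  · have h := fibre_bound hd hR hS hfib I (Or.inl rfl) 0 Fin.elim0 Fin.elim0
      (by simp [Set.range_eq_empty, hI]) (fun i => i.elim0)
    rw [Finset.univ_eq_empty, Finset.prod_empty, one_mul, ← hIdef] at h
    exact (le_mul_of_one_le_left hR0 hlam).trans h
  have hzn : z ∈ maximalIdeal S := hz ▸ Ideal.mem_sup_right (Ideal.mem_span_singleton_self z)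
  have hz2 : z ^ 2 ∈ I := hsq (Ideal.pow_mem_pow hzn 2)
  have h := fibre_bound hd hR hS hfib I (Or.inl rfl) 1 (fun _ => z) (fun _ => 2)
    (by simpa [Set.range_const] using hz) (fun i => Ideal.mem_sup_left hz2)
  rw [Fin.prod_univ_one, ← hIdef] at h
  have h2 : (2 : ℝ) ≤ ((len I).toNat : ℝ) := by
    exact_mod_cast two_le_toNat (R := R) (S := S) hfib hI
  push_cast at h
  nlinarith

end main

end Vale.Agent.P202.Fibre
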